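import Crest.Agent.X261.Sh97.Defs

/-!
# X261/Sh81/Defs (helper81): tube data

`Dat A Y T π O` : `π : T → O` is a proper holomorphic submersion with connected fibres whose fibre
relation is contained in `Y`.
-/

set_option autoImplicit false
set_option linter.unusedSectionVars false

open Set Filter Topology Module

namespace Crest.Agent.X261.Sh81

open Crest.Agent.X261.Ans

variable {E : Type} [NormedAddCommGroup E] [NormedSpace ℂ E] {M : Type} [TopologicalSpace M]

/-- a tube datum -/
structure Dat (A : HA E M) (Y : Set (M × M)) {p : ℕ} (T : Set M) (π : M → Fin p → ℂ)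
    (O : Set (Fin p → ℂ)) : Prop where
  opn : IsOpen T
  opO : IsOpen O
  img : π '' T = O
  subm : ∀ y ∈ T, A.Subm (HA.self (Fin p → ℂ)) π y
  prop : ∀ K ⊆ O, IsCompact K → IsCompact (T ∩ π ⁻¹' K)
  conn : ∀ t, IsPreconnected (T ∩ π ⁻¹' {t})
  sub : ∀ y ∈ T, ∀ z ∈ T, π y = π z → (y, z) ∈ Y

end Crest.Agent.X261.Sh81
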