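import Crest.Agent.X261.Sh81.Tub
import Crest.Agent.X261.Ans.Comp

/-!
# X261/Sh81/Uniq (helper81): the fibres of the tube data are well defined

* `Dat.good` : at a point with a foliation chart, `Y` is the fibre relation of the datum;
* `Dat.uniq` : two data have the same fibre through a common point;
* `tubS`, `uniqS` : the statements for the output of `Sh97`.
-/

set_option autoImplicit false
set_option linter.unusedSectionVars false

open Set Filter Topology Module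

namespace Crest.Agent.X261.Sh81

open Crest.Agent.X261.Ans Crest.Agent.X261.Sh97

variable {E F : Type} [NormedAddCommGroup E] [NormedSpace ℂ E] [FiniteDimensional ℂ E]
  [NormedAddCommGroup F] [NormedSpace ℂ F] [FiniteDimensional ℂ F]
  {M : Type} [TopologicalSpace M] [T2Space M] {A : HA E M} {Y : Set (M × M)} {p : ℕ}

/-- the fibre relation of a submersion is regular along the diagonal -/
theorem reg_rel {π : M → F} {y : M} (h : A.Subm (HA.self F) π y) :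
    (A.prod A).Reg {q | π q.1 = π q.2} (finrank ℂ (E × E) - finrank ℂ F) (y, y) := by
  obtain ⟨σ, s1, s2, s3⟩ := h.sec
  have e0 : π y - π y + π y = π y := by simp
  have h1 : (HA.self F).Hol (HA.self F) (fun t => t + π y) (π y - π y) :=
    HA.self_hol_iff.2 (analyticAt_id.add analyticAt_const)
  have h2 : (A.prod A).Subm (HA.self F) (fun q => π q.1 - π q.2) (y, y) := by
    refine HA.subm_of_sec ((h.hol.comp (HA.hol_fst A A (y, y))).sub
      (h.hol.comp (HA.hol_snd A A (y, y)))) (σ := fun t => (σ (t + π y), y))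
      ((s1.comp_of_eq h1 e0).prodMk (HA.hol_const _ _ _ _)) (by simp [s2]) ?_
    have h3 : Tendsto (fun t => t + π y) (𝓝 (π y - π y)) (𝓝 (π y)) := by
      have := h1.1.tendsto
      rwa [e0] at this
    filter_upwards [h3.eventually s3] with t ht
    rw [ht, add_sub_cancel_right]
  refine h2.reg_fibre.congr (Eventually.of_forall fun q => ?_)
  simp [sub_eq_zero]

theorem sub_of_clopen {S C : Set M} (hS : IsPreconnected S) (hC : IsClosed C)
    (hne : (S ∩ C).Nonempty) (h : ∀ z ∈ S, z ∈ C → ∀ᶠ w in 𝓝 z, w ∈ S → w ∈ C) : S ⊆ C := by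
  rcases isPreconnected_iff_subset_of_disjoint.1 hS {z | ∀ᶠ w in 𝓝 z, w ∈ S → w ∈ C} Cᶜ
    isOpen_setOfPred_eventually_nhds hC.isOpen_compl
    (fun z hz => or_iff_not_imp_right.2 fun k => h z hz (not_not.1 k))
    (eq_empty_of_forall_notMem fun z hz => hz.2.2 (hz.2.1.self_of_nhds hz.1)) with k | k
  · exact fun z hz => (k hz).self_of_nhds hz
  · obtain ⟨z, z1, z2⟩ := hne
    exact absurd z2 (k z1)

variable {T T' : Set M} {π π' : M → Fin p → ℂ} {O O' : Set (Fin p → ℂ)}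

theorem Dat.mem (D : Dat A Y T π O) {y : M} (hy : y ∈ T) : π y ∈ O := D.img ▸ mem_image_of_mem π hy

theorem Dat.cpt (D : Dat A Y T π O) {y : M} (hy : y ∈ T) : IsCompact (T ∩ π ⁻¹' {π y}) :=
  D.prop _ (singleton_subset_iff.2 (D.mem hy)) isCompact_singleton

theorem Dat.reg (D : Dat A Y T π O) {t : Fin p → ℂ} {y : M} (hy : y ∈ T ∩ π ⁻¹' {t}) :
    A.Reg (T ∩ π ⁻¹' {t}) (finrank ℂ E - finrank ℂ (Fin p → ℂ)) y := by
  refine (D.subm y hy.1).reg_fibre.congr ?_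
  filter_upwards [D.opn.mem_nhds hy.1] with w hw
  rw [show π y = t from hy.2]
  exact ⟨fun k => ⟨hw, k⟩, fun k => k.2⟩

theorem Dat.an (D : Dat A Y T π O) {y : M} (hy : y ∈ T) : A.An univ (T ∩ π ⁻¹' {π y}) :=
  HA.an_of_closed (fun _ _ h => (D.cpt hy).isClosed.closure_subset h) fun _ _ h => (D.reg h).anAt

/-- at a point with a foliation chart, `Y` is the fibre relation of the datum -/
theorem Dat.good (D : Dat A Y T π O) {x : M} (hx : x ∈ T) {U : Set M} {π₀ : M → Fin p → ℂ}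
    (g : GrAt A Y p x U π₀) : ∀ᶠ q in 𝓝 (x, x), q ∈ Y → π q.1 = π q.2 := by
  have hT : ∀ᶠ q in 𝓝 (x, x), q ∈ T ×ˢ T := prod_mem_nhds (D.opn.mem_nhds hx) (D.opn.mem_nhds hx)
  have hU : ∀ᶠ q in 𝓝 (x, x), q ∈ U ×ˢ U :=
    prod_mem_nhds (g.opn.mem_nhds g.mem) (g.opn.mem_nhds g.mem)
  have h := (reg_rel (D.subm x hx)).sub_of_sub (reg_rel (g.subm x g.mem))
    ((hT.and hU).mono fun q hq e => (g.iff _ hq.2.1 _ hq.2.2).1 (D.sub _ hq.1.1 _ hq.1.2 e))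
  filter_upwards [h, hU] with q q1 q2 q3
  exact q1 ((g.iff _ q2.1 _ q2.2).1 q3)

theorem Dat.uniq_loc (D : Dat A Y T π O) (D' : Dat A Y T' π' O') {y : M} (hy : y ∈ T)
    (hy' : y ∈ T') (hd : ∃ᶠ z in 𝓝 y, ∃ (U : Set M) (π₀ : M → Fin p → ℂ), GrAt A Y p z U π₀) :
    ∀ᶠ z in 𝓝 y, π z = π y → π' z = π' y := by
  have h' := (D'.subm y hy').hol
  rcases (reg_rel (D.subm y hy)).dich (Z := {q | π' q.1 = π' q.2})
    (HA.anAt_eq_self (h'.comp (f := Prod.fst) (HA.hol_fst A A (y, y)))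
      (h'.comp (f := Prod.snd) (HA.hol_snd A A (y, y)))) with
    h | ⟨V, v1, v2, -, -, v3⟩
  · exact (HA.hol_inl A A y y).1.eventually h
  · exfalso
    have h1 : ∀ᶠ z in 𝓝 y, (z, z) ∈ V := (HA.hol_diag A y).1.eventually (v1.mem_nhds v2)
    obtain ⟨z, ⟨U, π₀, g⟩, ⟨z1, z2⟩, z3⟩ :=
      (hd.and_eventually ((h1.and (D.opn.mem_nhds hy)).and (D'.opn.mem_nhds hy'))).exists
    obtain ⟨q, ⟨q1, q2⟩, q3, q4⟩ := mem_closure_iff_nhds.1 (v3 (a := (z, z)) ⟨rfl, z1⟩) _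
      ((D'.good z3 g).and (prod_mem_nhds (D.opn.mem_nhds z2) (D.opn.mem_nhds z2)))
    exact q4 (q1 (D.sub _ q2.1 _ q2.2 q3.1))

theorem Dat.uniq_sub (D : Dat A Y T π O) (D' : Dat A Y T' π' O')
    (hd : ∀ y, ∃ᶠ z in 𝓝 y, ∃ (U : Set M) (π₀ : M → Fin p → ℂ), GrAt A Y p z U π₀) {y : M}
    (hy' : y ∈ T') (hy : y ∈ T) : T ∩ π ⁻¹' {π y} ⊆ T' ∩ π' ⁻¹' {π' y} := by
  refine sub_of_clopen (D.conn (π y)) (D'.cpt hy').isClosed ⟨y, ⟨hy, rfl⟩, hy', rfl⟩
    fun z hz h => ?_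
  filter_upwards [D.uniq_loc D' hz.1 h.1 (hd z), D'.opn.mem_nhds h.1] with w w1 w2 w3
  exact ⟨w2, (w1 ((show π w = π y from w3.2).trans (show π z = π y from hz.2).symm)).trans h.2⟩

/-- two data have the same fibre through a common point -/
theorem Dat.uniq (D : Dat A Y T π O) (D' : Dat A Y T' π' O')
    (hd : ∀ y, ∃ᶠ z in 𝓝 y, ∃ (U : Set M) (π₀ : M → Fin p → ℂ), GrAt A Y p z U π₀) {y : M}
    (hy : y ∈ T) (hy' : y ∈ T') : T ∩ π ⁻¹' {π y} = T' ∩ π' ⁻¹' {π' y} :=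
  subset_antisymm (D.uniq_sub D' hd hy' hy) (D'.uniq_sub D hd hy hy')

/-- TUB -/
theorem tubS [Countable A.ι] {k : Key A} (Q : Out k) : A.Cov (finrank ℂ E)
    {x | ¬ ∃ (T : Set M) (π : M → Fin Q.p → ℂ) (O : Set (Fin Q.p → ℂ)), Dat A Q.Y T π O ∧ x ∈ T} :=
  cov_compl Q.irr.an Q.bip Q.cov Q.gr

/-- UNIQ -/
theorem uniqS {k : Key A} (Q : Out k) {T T' : Set M} {π π' : M → Fin Q.p → ℂ}
    {O O' : Set (Fin Q.p → ℂ)} (D : Dat A Q.Y T π O) (D' : Dat A Q.Y T' π' O') {y : M}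
    (hy : y ∈ T) (hy' : y ∈ T') : T ∩ π ⁻¹' {π y} = T' ∩ π' ⁻¹' {π' y} :=
  D.uniq D' (fun y => (Q.cov.frequently_notMem y).mono Q.gr) hy hy'

/-- MAX -/
theorem maxS {k : Key A} (Q : Out k) {T : Set M} {π : M → Fin Q.p → ℂ} {O : Set (Fin Q.p → ℂ)}
    (D : Dat A Q.Y T π O) {x : M} (hx : x ∈ T) (hB : x ∉ Q.B) {Z : Set M} (hK : IsCompact Z)
    (hc : IsPreconnected Z) (hZ : A.An univ Z) (hxZ : x ∈ Z) : Z ⊆ T ∩ π ⁻¹' {π x} := by
  obtain ⟨U, π₀, g⟩ := Q.gr x hB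
  obtain ⟨σ, s1, s2, s3⟩ := (D.subm x hx).sec
  have ht : Tendsto σ (𝓝 (π x)) (𝓝 x) := by
    have := s1.1.tendsto
    rwa [s2] at this
  refine sub_of_clopen hc (D.cpt hx).isClosed ⟨x, hxZ, hx, rfl⟩ fun b _ h => ?_
  have hπ : Tendsto π (𝓝 b) (𝓝 (π x)) := by
    have := (D.subm b h.1).hol.1.tendsto
    rwa [show π b = π x from h.2] at this
  obtain ⟨N, n1, n2, n3⟩ := _root_.eventually_nhds_iff.1
    ((hπ.eventually ((s1.eventually.and s3).and (ht.eventually (D.opn.mem_nhds hx)))).and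
      (D.opn.mem_nhds h.1))
  have hZN : A.An N Z := hZ.mono (subset_univ _)
  have key : ∀ C, A.Comp N Z C → ∀ᶠ w in 𝓝 b, w ∈ C → π w = π x := by
    intro C hC
    obtain ⟨c1, d, c2⟩ := hC.irr n2 hZN
    obtain ⟨c, hc'⟩ := c2.sub_iUnion n2 (Z := fun c => (fun y => (x, σ (π y))) ⁻¹' k.Z c)
      (fun c => (k.an c).preimage (fun y hy => (HA.hol_const _ _ _ _).prodMk
        ((n1 y hy).1.1.1.comp (D.subm y (n1 y hy).2).hol)) (mapsTo_univ _ _))
      (fun y hy => mem_iUnion.2 (k.er _ _ ⟨Z ∪ T ∩ π ⁻¹' {π y}, hK.union (D.cpt (n1 y hy.1).2),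
        hc.union' ⟨y, c1 hy.2, (n1 y hy.1).2, rfl⟩ (D.conn _), hZ.union (D.an (n1 y hy.1).2),
        Or.inl hxZ, Or.inr ⟨(n1 y hy.1).1.2, (n1 y hy.1).1.1.2⟩⟩))
    have h1 : Tendsto (fun y => (x, σ (π y))) (𝓝 b) (𝓝 (x, x)) :=
      tendsto_const_nhds.prodMk_nhds (ht.comp hπ)
    filter_upwards [h1.eventually ((Q.loc x hB c).and (D.good hx g)), n2.mem_nhds n3]
      with w w1 w2 w3
    exact ((w1.2 (w1.1 (hc' ⟨w2, w3⟩))).trans (n1 w w2).1.1.2).symm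
  obtain ⟨W, hW, hf⟩ := HA.comp_lf n2 hZN n3
  filter_upwards [(eventually_all_finite hf).2 fun C hC => key C hC.1, hW, n2.mem_nhds n3]
    with w w1 w2 w3 w4
  obtain ⟨C, hC, w5⟩ := HA.comp_cover n2 hZN w3 w4
  exact ⟨(n1 w w3).2, w1 C ⟨hC, w, w5, w2⟩ w5⟩

end Crest.Agent.X261.Sh81
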