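import Crest.Agent.X261.Sh81.Defs

/-!
# X261/Sh81/Clo (helper81): the component of a section in the fibres of a proper submersion

* `Jn T π σ` : the points of `T` in the same component of their fibre as the section `σ`;
* `Pre.isOpen_jn`, `Pre.isOpen_diff` : `Jn` is open and closed in `T`;
* `subm_box` : boxes of submersions.
-/

set_option autoImplicit false
set_option linter.unusedSectionVars false

open Set Filter Topology Module

namespace Crest.Agent.X261.Sh81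

open Crest.Agent.X261.Ans

section Top

variable {M B : Type} [TopologicalSpace M] [TopologicalSpace B]

/-- the points joined to the section inside their fibre -/
def Jn (T : Set M) (π : M → B) (σ : B → M) : Set M :=
  {y | y ∈ connectedComponentIn (T ∩ π ⁻¹' {π y}) (σ (π y))}

/-- an open map with boxes and a section -/
structure Pre (T : Set M) (π : M → B) (σ : B → M) : Prop where
  opn : IsOpen T
  cont : ∀ y ∈ T, ContinuousAt π y
  scont : ∀ y ∈ T, ContinuousAt σ (π y)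
  smem : ∀ y ∈ T, σ (π y) ∈ T ∧ π (σ (π y)) = π y
  box : ∀ c ∈ T, ∃ V ∈ 𝓝 c, ∀ y ∈ V, ∀ z ∈ V, π y = π z →
    z ∈ connectedComponentIn (T ∩ π ⁻¹' {π y}) y
  opm : ∀ c ∈ T, ∀ V ∈ 𝓝 c, π '' V ∈ 𝓝 (π c)
  prop : ∀ c ∈ T, ∃ K ∈ 𝓝 (π c), IsCompact (T ∩ π ⁻¹' K)

variable {T : Set M} {π : M → B} {σ : B → M}

theorem jn_sub : Jn T π σ ⊆ T := fun _ hy => (connectedComponentIn_subset _ _ hy).1

theorem jn_fib (t : B) :
    Jn T π σ ∩ π ⁻¹' {t} = connectedComponentIn (T ∩ π ⁻¹' {t}) (σ t) := by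
  ext y
  constructor
  · rintro ⟨h1, h2⟩
    obtain rfl : π y = t := h2
    exact h1
  · intro h
    obtain rfl : π y = t := (connectedComponentIn_subset _ _ h).2
    exact ⟨h, rfl⟩

theorem Pre.sec_mem (h : Pre T π σ) {y : M} (hy : y ∈ T) : σ (π y) ∈ Jn T π σ := by
  obtain ⟨h1, h2⟩ := h.smem y hy
  change σ (π y) ∈ connectedComponentIn (T ∩ π ⁻¹' {π (σ (π y))}) (σ (π (σ (π y))))
  rw [h2]
  exact mem_connectedComponentIn ⟨h1, h2⟩

theorem Pre.isOpen_jn (h : Pre T π σ) : IsOpen (Jn T π σ) := by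
  refine isOpen_iff_mem_nhds.2 fun c hc => ?_
  have hcT := jn_sub hc
  obtain ⟨s1, s2⟩ := h.smem c hcT
  have hs : σ (π c) ∈ connectedComponentIn (T ∩ π ⁻¹' {π c}) (σ (π c)) :=
    mem_connectedComponentIn ⟨s1, s2⟩
  have key : ∀ V : Set M, (∀ y ∈ V, ∀ z ∈ V, π y = π z →
      z ∈ connectedComponentIn (T ∩ π ⁻¹' {π y}) y) → ∀ a ∈ T, ∀ b ∈ T, V ∈ 𝓝 a → V ∈ 𝓝 b →
      π a = π b → Jn T π σ ∈ 𝓝 a → Jn T π σ ∈ 𝓝 b := by
    intro V hV a ha b hb h1 h2 h3 h4
    have h5 := h.opm a ha _ (inter_mem h1 h4)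
    rw [h3] at h5
    filter_upwards [h2, h.cont b hb h5] with y hy1 hy2
    obtain ⟨y', ⟨k1, k2⟩, k3⟩ := hy2
    have k4 := hV y' k1 y hy1 k3
    change y' ∈ connectedComponentIn (T ∩ π ⁻¹' {π y'}) (σ (π y')) at k2
    rw [← connectedComponentIn_eq k2, k3] at k4
    exact k4
  have h0 : Jn T π σ ∈ 𝓝 (σ (π c)) := by
    obtain ⟨V, hV, hb⟩ := h.box _ s1
    have h1 : ContinuousAt (fun y => σ (π y)) (σ (π c)) :=
      ContinuousAt.comp (f := π) (h.scont _ s1) (h.cont _ s1)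
    have h2 : ∀ᶠ y in 𝓝 (σ (π c)), σ (π y) ∈ V := h1.eventually (by beta_reduce; rw [s2]; exact hV)
    filter_upwards [hV, h2, h.opn.mem_nhds s1] with y y1 y2 y3
    have := hb _ y2 y y1 (h.smem y y3).2
    rwa [(h.smem y y3).2] at this
  refine (isPreconnected_connectedComponentIn (F := T ∩ π ⁻¹' {π c}) (x := σ (π c))).induction₂'
    (fun a b => Jn T π σ ∈ 𝓝 a → Jn T π σ ∈ 𝓝 b) (fun a ha => ?_)
    (fun _ _ _ _ _ _ h1 h2 h3 => h2 (h1 h3)) hs hc h0
  obtain ⟨a1, a2⟩ := connectedComponentIn_subset _ _ ha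
  obtain ⟨V, hV, hb⟩ := h.box a a1
  filter_upwards [mem_nhdsWithin_of_mem_nhds (eventually_mem_nhds_iff.2 hV), self_mem_nhdsWithin]
    with b b1 b2
  obtain ⟨b3, b4⟩ := connectedComponentIn_subset _ _ b2
  have e : π a = π b := (show π a = π c from a2).trans (show π b = π c from b4).symm
  exact ⟨key V hb a a1 b b3 hV b1 e, key V hb b b3 a a1 b1 hV e.symm⟩

theorem isCompact_cc {F : Set M} (hF : IsCompact F) (x : M) :
    IsCompact (connectedComponentIn F x) := by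
  by_cases hx : x ∈ F
  · rw [connectedComponentIn_eq_image hx]
    have := isCompact_iff_compactSpace.1 hF
    exact isClosed_connectedComponent.isCompact.image continuous_subtype_val
  · rw [connectedComponentIn_eq_empty hx]
    exact isCompact_empty

theorem Pre.isOpen_diff [T2Space M] [T2Space B] (h : Pre T π σ) : IsOpen (T \ Jn T π σ) := by
  refine isOpen_iff_mem_nhds.2 fun c hc => ?_
  obtain ⟨K, hK, hKc⟩ := h.prop c hc.1
  have hcont : ContinuousOn π (T ∩ π ⁻¹' K) := fun y hy => (h.cont y hy.1).continuousWithinAt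
  have hF : IsCompact (T ∩ π ⁻¹' {π c}) := by
    convert hKc.of_isClosed_subset
      (hcont.preimage_isClosed_of_isClosed hKc.isClosed (isClosed_singleton (x := π c)))
      inter_subset_left using 1
    ext y
    exact ⟨fun hy => ⟨⟨hy.1, by
      rw [mem_preimage, show π y = π c from hy.2]; exact mem_of_mem_nhds hK⟩, hy.2⟩,
      fun hy => ⟨hy.1.1, hy.2⟩⟩
  obtain ⟨O₁, O₂, o1, o2, o3, o4, o5⟩ := SeparatedNhds.of_isCompact_isCompact
    (isCompact_cc hF (σ (π c))) (hF.diff h.isOpen_jn)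
    (by rw [← jn_fib]; exact disjoint_left.2 fun y h1 h2 => h2.2 h1.1)
  have h1 : IsClosed (π '' ((T ∩ π ⁻¹' K) \ (O₁ ∪ O₂))) :=
    ((hKc.diff (o1.union o2)).image_of_continuousOn (hcont.mono sdiff_subset)).isClosed
  have h2 : π c ∉ π '' ((T ∩ π ⁻¹' K) \ (O₁ ∪ O₂)) := by
    rintro ⟨y, ⟨y1, y2⟩, y3⟩
    by_cases hy : y ∈ Jn T π σ
    · exact y2 (Or.inl (o3 ((jn_fib (T := T) (σ := σ) (π c)).le ⟨hy, y3⟩)))
    · exact y2 (Or.inr (o4 ⟨⟨y1.1, y3⟩, hy⟩))
  have h3 : σ (π c) ∈ O₁ := o3 (mem_connectedComponentIn (h.smem c hc.1))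
  have h4 : ContinuousAt (fun y => σ (π y)) c :=
    ContinuousAt.comp (f := π) (h.scont _ hc.1) (h.cont _ hc.1)
  filter_upwards [h.opn.mem_nhds hc.1, h.cont c hc.1 hK,
    h.cont c hc.1 (h1.isOpen_compl.mem_nhds h2), h4 (o1.mem_nhds h3),
    o2.mem_nhds (o4 ⟨⟨hc.1, rfl⟩, hc.2⟩)] with y y1 y2 y3 y4 y5
  refine ⟨y1, fun hy => ?_⟩
  have h5 : connectedComponentIn (T ∩ π ⁻¹' {π y}) (σ (π y)) ⊆ O₁ ∪ O₂ := by
    intro z hz
    obtain ⟨z1, z2⟩ := connectedComponentIn_subset _ _ hz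
    by_contra z3
    exact y3 ⟨z, ⟨⟨z1, by rw [mem_preimage, show π z = π y from z2]; exact y2⟩, z3⟩, z2⟩
  exact disjoint_left.1 o5 (isPreconnected_connectedComponentIn.subset_left_of_subset_union o1 o2 o5
    h5 ⟨σ (π y), mem_connectedComponentIn (h.smem y y1), y4⟩ hy) y5

end Top

variable {E F : Type} [NormedAddCommGroup E] [NormedSpace ℂ E] [FiniteDimensional ℂ E]
  [NormedAddCommGroup F] [NormedSpace ℂ F] [FiniteDimensional ℂ F]
  {M : Type} [TopologicalSpace M] {A : HA E M}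

/-- boxes of submersions -/
theorem subm_box {π : M → F} {c : M} (h : A.Subm (HA.self F) π c) {T : Set M} (hT : T ∈ 𝓝 c) :
    ∃ V ∈ 𝓝 c, ∀ y ∈ V, ∀ z ∈ V, π y = π z → z ∈ connectedComponentIn (T ∩ π ⁻¹' {π y}) y := by
  obtain ⟨i, hi⟩ := A.cover c
  have ha := (HA.hol_self_iff hi).1 h.hol
  obtain ⟨L, hL⟩ := C2.exists_rinv ((HA.subm_self_iff h.hol hi).1 h)
  obtain ⟨O, O', G, Ψ, h1, h2, h3, h4, -, h6, h7, h8, h9⟩ := C2.straight ha hL
    (inter_mem (HA.ev_target hi) (HA.tendsto_symm hi hT))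
  obtain ⟨r, hr, hb⟩ := Metric.isOpen_iff.1 h2 _ (h8 _ h3).1
  have h10 : ∀ᶠ z in 𝓝 (A.e i c), z ∈ O ∧ Ψ z ∈ Metric.ball (Ψ (A.e i c)) r :=
    (h1.eventually_mem h3).and ((h7 _ h3).continuousAt (Metric.ball_mem_nhds _ hr))
  refine ⟨_, ((HA.ev_chart' hi).1 h10).and (HA.ev_source hi), fun y hy z hz e => ?_⟩
  set S : Set E := Metric.ball (Ψ (A.e i c)) r ∩
    fderiv ℂ (fun z => π ((A.e i).symm z)) (A.e i c) ⁻¹' {π y} with hS
  have hc : IsPreconnected S :=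
    ((convex_ball _ _).inter ((convex_singleton (π y)).linear_preimage
      ((fderiv ℂ (fun z => π ((A.e i).symm z)) (A.e i c)).toLinearMap.restrictScalars
        ℝ))).isPreconnected
  have hc' : IsPreconnected ((fun w => (A.e i).symm (G w)) '' S) :=
    hc.image _ fun w hw => (ContinuousAt.comp (f := G)
      ((A.e i).continuousAt_symm (h4 (h9 w (hb hw.1)).1).1)
      (h6 w (hb hw.1)).continuousAt).continuousWithinAt
  have hm : ∀ u : M, ((A.e i u ∈ O ∧ Ψ (A.e i u) ∈ Metric.ball (Ψ (A.e i c)) r) ∧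
      u ∈ (A.e i).source) → π u = π y → u ∈ (fun w => (A.e i).symm (G w)) '' S := by
    intro u hu e
    obtain ⟨-, k2, k3⟩ := h8 _ hu.1.1
    refine ⟨Ψ (A.e i u), ⟨hu.1.2, ?_⟩, ?_⟩
    · rw [mem_preimage, k3, (A.e i).left_inv hu.2, e]
      rfl
    · beta_reduce
      rw [k2, (A.e i).left_inv hu.2]
  refine hc'.subset_connectedComponentIn (hm y hy rfl) ?_ (hm z hz e.symm)
  rintro _ ⟨w, hw, rfl⟩
  obtain ⟨k1, -, k3⟩ := h9 w (hb hw.1)
  exact ⟨(h4 k1).2, k3.trans hw.2⟩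

end Crest.Agent.X261.Sh81
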