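import Crest.Agent.X261.Sh81.Uniq
import Crest.Agent.X261.Sh72.Conv
import Crest.Agent.X261.Sh97.Main

/-!
# X261/Sh81/Fin (helper81): the `G`-reduction from the analytic input `KeyS`
-/

set_option autoImplicit false

namespace Crest.Agent.X261.Sh81

theorem tubStmt : Sh72.TubS := fun _ _ _ _ _ _ _ _ _ _ _ Q => tubS Q

theorem uniqStmt : Sh72.UniqS := fun _ _ _ _ _ _ _ _ _ _ _ Q _ _ _ _ _ _ D D' _ hy hy' =>
  uniqS Q D D' hy hy'

theorem maxStmt : Sh72.MaxS := fun _ _ _ _ _ _ _ _ _ _ _ Q _ _ _ D _ hx hB _ hK hc hZ hxZ =>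
  maxS Q D hx hB hK hc hZ hxZ

/-- GRED from KEY -/
theorem gredK_of_key (hK : Sh72.KeyS) : Sk.GredK :=
  Sh72.gredK_of Sh97.outStmt tubStmt uniqStmt maxStmt hK

end Crest.Agent.X261.Sh81
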