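import Crest.Agent.X261.Sh81.Clo

/-!
# X261/Sh81/Tub (helper81): tube data through the general point

* `PT` : a proper holomorphic map `τ : T₀ → B₀` which is a foliation chart of `Y` on `U₀`;
* `exists_pt` : its existence near a point where `Y` is a graph;
* `PT.dat` : tube data over the regular values;
* `cov_compl` : the points which lie in no tube datum form a thin set.
-/

set_option autoImplicit false
set_option linter.unusedSectionVars false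

open Set Filter Topology Module

namespace Crest.Agent.X261.Sh81

open Crest.Agent.X261.Ans Crest.Agent.X261.Sh97

variable {E : Type} [NormedAddCommGroup E] [NormedSpace ℂ E] [FiniteDimensional ℂ E]
  {M : Type} [TopologicalSpace M] [T2Space M] {A : HA E M} {Y : Set (M × M)} {p : ℕ}

/-- a proper holomorphic map which is a foliation chart on `U₀` -/
structure PT (A : HA E M) (Y : Set (M × M)) {p : ℕ} (T₀ U₀ : Set M) (τ : M → Fin p → ℂ)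
    (B₀ : Set (Fin p → ℂ)) : Prop where
  opT : IsOpen T₀
  opU : IsOpen U₀
  opB : IsOpen B₀
  sub : U₀ ⊆ T₀
  hol : ∀ y ∈ T₀, A.Hol (HA.self (Fin p → ℂ)) τ y
  mem : ∀ y ∈ T₀, τ y ∈ B₀
  prop : ∀ K ⊆ B₀, IsCompact K → IsCompact (T₀ ∩ τ ⁻¹' K)
  subm : ∀ y ∈ U₀, A.Subm (HA.self (Fin p → ℂ)) τ y
  rel : ∀ y ∈ U₀, ∀ z ∈ U₀, τ y = τ z → (y, z) ∈ Y

/-- the classes of the points near `x` are near the class of `x` -/
theorem usc_fib (A : HA E M) (hb : BiP Y) {x : M} {N : Set M} (hN : N ∈ 𝓝ˢ {b | (x, b) ∈ Y}) :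
    ∀ᶠ u in 𝓝 x, ∀ b, (u, b) ∈ Y → b ∈ N := by
  have := A.locallyCompact
  obtain ⟨K, hK, hKc⟩ := exists_compact_mem_nhds x
  have h1 : IsClosed (Prod.fst '' ((Y ∩ Prod.fst ⁻¹' K) \ Prod.snd ⁻¹' interior N)) :=
    (((hb K hK).1.diff (isOpen_interior.preimage continuous_snd)).image continuous_fst).isClosed
  have h2 : x ∉ Prod.fst '' ((Y ∩ Prod.fst ⁻¹' K) \ Prod.snd ⁻¹' interior N) := by
    rintro ⟨⟨a, b⟩, ⟨⟨k1, -⟩, k2⟩, rfl⟩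
    exact k2 (subset_interior_iff_mem_nhdsSet.2 hN k1)
  filter_upwards [hKc, h1.isOpen_compl.mem_nhds h2] with u u1 u2 b hb
  by_contra h3
  exact u2 ⟨(u, b), ⟨⟨hb, u1⟩, fun h => h3 (interior_subset h)⟩, rfl⟩

theorem fib_cpt (hb : BiP Y) {K : Set M} (hK : IsCompact K) :
    IsCompact {b | ∃ u ∈ K, (u, b) ∈ Y} := by
  convert (hb K hK).1.image continuous_snd using 1
  ext b
  constructor
  · rintro ⟨u, h1, h2⟩
    exact ⟨(u, b), ⟨h2, h1⟩, rfl⟩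
  · rintro ⟨⟨u, b⟩, ⟨h2, h1⟩, rfl⟩
    exact ⟨u, h1, h2⟩

theorem exists_pt (hb : BiP Y) {x : M} {U : Set M} {π : M → Fin p → ℂ}
    (g : GrAt A Y p x U π) : ∃ (T₀ U₀ : Set M) (τ : M → Fin p → ℂ) (B₀ : Set (Fin p → ℂ)),
      PT A Y T₀ U₀ τ B₀ ∧ x ∈ U₀ := by
  classical
  obtain ⟨σ, s1, s2, s3⟩ := (g.subm x g.mem).sec
  have ht : Tendsto σ (𝓝 (π x)) (𝓝 x) := by
    have := s1.1.tendsto
    rwa [s2] at this
  let Gd : Set (Fin p → ℂ) → M → Prop := fun B' b => ∃ τ : M → Fin p → ℂ,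
    A.Hol (HA.self (Fin p → ℂ)) τ b ∧ ∀ᶠ b' in 𝓝 b, ∀ t ∈ B', ((σ t, b') ∈ Y ↔ t = τ b')
  have hF : IsCompact {b | (x, b) ∈ Y} := by
    simpa using fib_cpt hb (isCompact_singleton (x := x))
  have h1 : ∃ B' ∈ 𝓝 (π x), ∀ᶠ b in 𝓝ˢ {b | (x, b) ∈ Y}, Gd B' b := by
    have mono : ∀ B₁ B₂ b, B₁ ⊆ B₂ → Gd B₂ b → Gd B₁ b := fun B₁ B₂ b h ⟨τ, k1, k2⟩ =>
      ⟨τ, k1, k2.mono fun b' hb' t ht => hb' t (h ht)⟩
    refine hF.induction_on (p := fun S => ∃ B' ∈ 𝓝 (π x), ∀ᶠ b in 𝓝ˢ S, Gd B' b)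
      ⟨univ, univ_mem, by simp⟩ ?_ ?_ ?_
    · rintro S S' h ⟨B', k1, k2⟩
      exact ⟨B', k1, k2.filter_mono (nhdsSet_mono h)⟩
    · rintro S S' ⟨B₁, k1, k2⟩ ⟨B₂, k3, k4⟩
      refine ⟨B₁ ∩ B₂, inter_mem k1 k3, ?_⟩
      rw [nhdsSet_union, eventually_sup]
      exact ⟨k2.mono fun b => mono _ _ b inter_subset_left,
        k4.mono fun b => mono _ _ b inter_subset_right⟩
    · intro b hxb
      obtain ⟨τ, k1, k2⟩ := g.gr b hxb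
      have k3 : Tendsto (fun q : (Fin p → ℂ) × M => (σ q.1, q.2)) (𝓝 (π x) ×ˢ 𝓝 b) (𝓝 (x, b)) := by
        rw [nhds_prod_eq]
        exact (ht.comp tendsto_fst).prodMk tendsto_snd
      obtain ⟨P₁, k4, P₂, k5, k6⟩ := eventually_prod_iff.1
        ((k3.eventually k2).and (tendsto_fst.eventually s3))
      refine ⟨interior {b | Gd {t | P₁ t} b}, mem_nhdsWithin_of_mem_nhds (interior_mem_nhds.2 ?_),
        _, k4, mem_of_superset isOpen_interior.mem_nhdsSet_self interior_subset⟩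
      filter_upwards [k1.eventually, k5.eventually_nhds] with b' k7 k8
      refine ⟨τ, k7, k8.mono fun b'' k9 t ht => ?_⟩
      obtain ⟨e1, e2⟩ := k6 ht k9
      rw [e1, e2]
  obtain ⟨B', hB', hN⟩ := h1
  obtain ⟨B₀, b1, b2, b3⟩ := _root_.eventually_nhds_iff.1
    ((((ht.eventually (usc_fib A hb hN)).and hB').and s3).and
      (s1.eventually.and (ht.eventually (g.opn.mem_nhds g.mem))))
  let T₀ : Set M := {b | ∃ t ∈ B₀, (σ t, b) ∈ Y}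
  let τ : M → Fin p → ℂ := fun b => if h : b ∈ T₀ then h.choose else 0
  have hτ : ∀ b ∈ T₀, τ b ∈ B₀ ∧ (σ (τ b), b) ∈ Y := fun b h => by
    simp only [τ, dif_pos h]
    exact h.choose_spec
  have key : ∀ b ∈ T₀, ∃ τ' : M → Fin p → ℂ, A.Hol (HA.self (Fin p → ℂ)) τ' b ∧
      ∀ᶠ b' in 𝓝 b, b' ∈ T₀ ∧ τ' b' = τ b' ∧ ∀ t ∈ B₀, (σ t, b') ∈ Y → t = τ b' := by
    rintro b ⟨t, t1, t2⟩
    obtain ⟨τ', k1, k2⟩ : Gd B' b := (b1 t t1).1.1.1 b t2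
    have k3 : τ' b ∈ B₀ := (k2.self_of_nhds t (b1 t t1).1.1.2).1 t2 ▸ t1
    refine ⟨τ', k1, ?_⟩
    filter_upwards [k2, k1.1 (b2.mem_nhds k3)] with b' k4 k5
    have k6 : b' ∈ T₀ := ⟨τ' b', k5, (k4 _ (b1 _ k5).1.1.2).2 rfl⟩
    have k7 : τ' b' = τ b' := ((k4 _ (b1 _ (hτ b' k6).1).1.1.2).1 (hτ b' k6).2).symm
    exact ⟨k6, k7, fun s hs h => k7 ▸ (k4 s (b1 s hs).1.1.2).1 h⟩
  have uniq : ∀ t ∈ B₀, ∀ b, (σ t, b) ∈ Y → b ∈ T₀ ∧ τ b = t := fun t ht b h => by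
    obtain ⟨τ', -, k⟩ := key b ⟨t, ht, h⟩
    exact ⟨⟨t, ht, h⟩, (k.self_of_nhds.2.2 t ht h).symm⟩
  have hU : IsOpen (U ∩ π ⁻¹' B₀) :=
    ContinuousOn.isOpen_inter_preimage (fun y hy => (g.subm y hy).hol.1.continuousWithinAt) g.opn b2
  have hUT : ∀ u ∈ U ∩ π ⁻¹' B₀, u ∈ T₀ ∧ τ u = π u := fun u hu =>
    uniq _ hu.2 u ((g.iff _ (b1 _ hu.2).2.2 u hu.1).2 (b1 _ hu.2).1.2)
  refine ⟨T₀, U ∩ π ⁻¹' B₀, τ, B₀, ⟨isOpen_iff_mem_nhds.2 fun b h => ?_, hU, b2,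
    fun u hu => (hUT u hu).1, fun b h => ?_, fun b h => (hτ b h).1, fun K hK hKc => ?_,
    fun u hu => ?_, fun y hy z hz e => ?_⟩, g.mem, b3⟩
  · obtain ⟨τ', -, k⟩ := key b h
    exact k.mono fun _ h => h.1
  · obtain ⟨τ', k1, k⟩ := key b h
    exact k1.congr (k.mono fun _ h => h.2.1)
  · convert fib_cpt hb (hKc.image_of_continuousOn (f := σ)
      fun t ht => (b1 t (hK ht)).2.1.1.continuousWithinAt) using 1
    ext b
    constructor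
    · exact fun h => ⟨_, ⟨τ b, h.2, rfl⟩, (hτ b h.1).2⟩
    · rintro ⟨_, ⟨t, t1, rfl⟩, t2⟩
      obtain ⟨k1, k2⟩ := uniq t (hK t1) b t2
      exact ⟨k1, by rw [mem_preimage, k2]; exact t1⟩
  · exact (g.subm u hu.1).congr ((hU.eventually_mem hu).mono fun y hy => (hUT y hy).2.symm)
  · exact (g.iff y hy.1 z hz.1).2 (by rw [← (hUT y hy).2, ← (hUT z hz).2, e])

variable {T₀ U₀ : Set M} {τ : M → Fin p → ℂ} {B₀ : Set (Fin p → ℂ)}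

/-- the regular values form an open set -/
theorem PT.reg_nhds (P : PT A Y T₀ U₀ τ B₀) {t : Fin p → ℂ} (ht : t ∈ B₀)
    (h : t ∉ τ '' {y | y ∈ T₀ ∧ ¬ A.Subm (HA.self (Fin p → ℂ)) τ y}) :
    ∀ᶠ s in 𝓝 t, ∀ y ∈ T₀, τ y = s → A.Subm (HA.self (Fin p → ℂ)) τ y := by
  obtain ⟨K, k1, k2, k3⟩ := local_compact_nhds (P.opB.mem_nhds ht)
  have h1 : IsClosed (τ '' ((T₀ ∩ τ ⁻¹' K) \ {y | A.Subm (HA.self (Fin p → ℂ)) τ y})) :=
    (((P.prop K k2 k3).diff (HA.isOpen_subm _ _ _)).image_of_continuousOn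
      fun y hy => (P.hol y hy.1.1).1.continuousWithinAt).isClosed
  have h2 : t ∉ τ '' ((T₀ ∩ τ ⁻¹' K) \ {y | A.Subm (HA.self (Fin p → ℂ)) τ y}) :=
    fun ⟨y, hy, e⟩ => h ⟨y, ⟨hy.1.1, hy.2⟩, e⟩
  filter_upwards [k1, h1.isOpen_compl.mem_nhds h2] with s s1 s2 y hy e
  by_contra h3
  exact s2 ⟨y, ⟨⟨hy, by rw [mem_preimage, e]; exact s1⟩, h3⟩, e⟩

/-- tube data over the regular values -/
theorem PT.dat (P : PT A Y T₀ U₀ τ B₀) (hY : (A.prod A).An univ Y) {u : M} (hu : u ∈ U₀)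
    (h : τ u ∉ τ '' {y | y ∈ T₀ ∧ ¬ A.Subm (HA.self (Fin p → ℂ)) τ y}) :
    ∃ (T : Set M) (O : Set (Fin p → ℂ)), Dat A Y T τ O ∧ u ∈ T := by
  obtain ⟨σ, s1, s2, s3⟩ := (P.subm u hu).sec
  have ht : Tendsto σ (𝓝 (τ u)) (𝓝 u) := by
    have := s1.1.tendsto
    rwa [s2] at this
  have h0 := P.mem u (P.sub hu)
  obtain ⟨O, b1, b2, b3⟩ := _root_.eventually_nhds_iff.1
    ((((P.reg_nhds h0 h).and (P.opB.eventually_mem h0)).and s3).and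
      (s1.eventually.and (ht.eventually (P.opU.mem_nhds hu))))
  have hT : IsOpen (T₀ ∩ τ ⁻¹' O) :=
    ContinuousOn.isOpen_inter_preimage (fun y hy => (P.hol y hy).1.continuousWithinAt) P.opT b2
  have hs : ∀ y ∈ T₀ ∩ τ ⁻¹' O, A.Subm (HA.self (Fin p → ℂ)) τ y := fun y hy =>
    (b1 _ hy.2).1.1.1 y hy.1 rfl
  have hσ : ∀ t ∈ O, σ t ∈ T₀ ∩ τ ⁻¹' O ∧ τ (σ t) = t := fun t ht =>
    ⟨⟨P.sub (b1 t ht).2.2, by rw [mem_preimage, (b1 t ht).1.2]; exact ht⟩, (b1 t ht).1.2⟩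
  have hp : ∀ K ⊆ O, IsCompact K → IsCompact ((T₀ ∩ τ ⁻¹' O) ∩ τ ⁻¹' K) := fun K k1 k2 => by
    rw [inter_assoc, ← preimage_inter, inter_eq_right.2 k1]
    exact P.prop K (fun t ht => (b1 t (k1 ht)).1.1.2) k2
  have Q : Pre (T₀ ∩ τ ⁻¹' O) τ σ :=
    ⟨hT, fun y hy => (hs y hy).hol.1, fun y hy => (b1 _ hy.2).2.1.1, fun y hy => hσ _ hy.2,
      fun c hc => subm_box (hs c hc) (hT.mem_nhds hc), fun c hc V hV => (hs c hc).image_mem_nhds hV,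
      fun c hc => by
        obtain ⟨K, k1, k2, k3⟩ := local_compact_nhds (b2.mem_nhds hc.2)
        exact ⟨K, k1, hp K k2 k3⟩⟩
  have hJ : ∀ t ∈ O, σ t ∈ Jn (T₀ ∩ τ ⁻¹' O) τ σ := fun t ht => by
    have := Q.sec_mem (hσ t ht).1
    rwa [(hσ t ht).2] at this
  have hc : ∀ t, IsPreconnected (Jn (T₀ ∩ τ ⁻¹' O) τ σ ∩ τ ⁻¹' {t}) := fun t => by
    rw [jn_fib]
    exact isPreconnected_connectedComponentIn
  refine ⟨Jn (T₀ ∩ τ ⁻¹' O) τ σ, O, ⟨Q.isOpen_jn, b2, ?_, fun y hy => hs y (jn_sub hy),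
    fun K k1 k2 => ?_, hc, fun y hy z hz e => ?_⟩, s2 ▸ hJ _ b3⟩
  · refine subset_antisymm ?_ fun t ht => ⟨σ t, hJ t ht, (hσ t ht).2⟩
    rintro _ ⟨y, hy, rfl⟩
    exact (jn_sub hy).2
  · convert (hp K k1 k2).diff Q.isOpen_diff using 1
    ext y
    exact ⟨fun hy => ⟨⟨jn_sub hy.1, hy.2⟩, fun k => k.2 hy.1⟩,
      fun hy => ⟨by_contra fun k => hy.2 ⟨hy.1.1, k⟩, hy.1.2⟩⟩
  · set F := Jn (T₀ ∩ τ ⁻¹' O) τ σ ∩ τ ⁻¹' {τ y} with hF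
    have hr : ∀ a ∈ F, A.Reg F (finrank ℂ E - finrank ℂ (Fin p → ℂ)) a := fun a ha => by
      refine (hs a (jn_sub ha.1)).reg_fibre.congr ?_
      filter_upwards [Q.isOpen_jn.mem_nhds ha.1] with w hw
      rw [show τ a = τ y from ha.2]
      exact ⟨fun k => ⟨hw, k⟩, fun k => k.2⟩
    have hy' : τ y ∈ O := (jn_sub hy).2
    have ha : σ (τ y) ∈ F := ⟨hJ _ hy', (hσ _ hy').2⟩
    rcases HA.ident (A := A.prod A) (Z := Y) ((hc (τ y)).prod (hc (τ y)))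
      (fun q hq => (hr _ hq.1).prod (hr _ hq.2)) (hY.mono (subset_univ _)) with k | k
    · exact k (show (y, z) ∈ F ×ˢ F from ⟨⟨hy, rfl⟩, hz, e.symm⟩)
    · have hU := P.opU.mem_nhds (b1 _ hy').2.2
      obtain ⟨q, q1, q2, q3⟩ := mem_closure_iff_nhds.1
        (k.2.2 (show (σ (τ y), σ (τ y)) ∈ F ×ˢ F from ⟨ha, ha⟩)) _ (prod_mem_nhds hU hU)
      exact absurd (P.rel _ q1.1 _ q1.2
        ((show τ q.1 = τ y from q2.1.2).trans (show τ q.2 = τ y from q2.2.2).symm)) q3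

/-- the points which lie in a tube datum -/
def M0 (A : HA E M) (Y : Set (M × M)) (p : ℕ) : Set M :=
  {u | ∃ (T : Set M) (π : M → Fin p → ℂ) (O : Set (Fin p → ℂ)), Dat A Y T π O ∧ u ∈ T}

theorem isOpen_M0 : IsOpen (M0 A Y p) :=
  isOpen_iff_mem_nhds.2 fun _ ⟨T, π, O, D, hu⟩ =>
    mem_of_superset (D.opn.mem_nhds hu) fun _ hy => ⟨T, π, O, D, hy⟩

theorem cov_compl [Countable A.ι] (hY : (A.prod A).An univ Y) (hb : BiP Y)
    {B : Set M} (hB : A.Cov (finrank ℂ E) B)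
    (hg : ∀ x, x ∉ B → ∃ (U : Set M) (π : M → Fin p → ℂ), GrAt A Y p x U π) :
    A.Cov (finrank ℂ E) (M0 A Y p)ᶜ := by
  refine (hB.union (T := (M0 A Y p)ᶜ \ B) (HA.cov_of_local fun x hx => ?_)).sub
    fun y hy => by_contra fun h => h (Or.inr ⟨hy, fun k => h (Or.inl k)⟩)
  obtain ⟨U, π, g⟩ := hg x hx.2
  obtain ⟨T₀, U₀, τ, B₀, P, hU⟩ := exists_pt hb g
  refine ⟨U₀, P.opU.mem_nhds hU, ?_⟩
  have h1 := (HA.cov_critval P.hol).preimage P.subm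
  have h2 := (P.subm x hU).finrank_le
  rw [Nat.add_sub_cancel' h2] at h1
  refine h1.sub fun u hu => ⟨hu.2, by_contra fun h => hu.1.1 ?_⟩
  obtain ⟨T, O, D, k⟩ := P.dat hY hu.2 h
  exact ⟨T, τ, O, D, k⟩

end Crest.Agent.X261.Sh81
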